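import Mathlib

/-!
# Cramer coordinates

If the powers `z ^ (q j)`, `j < n`, of an element `z` of a division algebra all of whose elements
have degree at most `n` are linearly independent, then every element near `z` is the combination
of its own powers with continuous coefficients.
-/

open Polynomial Filter Topology Module

namespace Vale.Agent.P011.H672.Insep

variable {K D : Type*} [Field K] [DivisionRing D] [Algebra K D] [FiniteDimensional K D]

/-- The powers of `x` below the degree span all polynomials in `x`. -/
theorem aeval_mem_span (x : D) (P : K[X]) :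
    aeval x P ∈ Submodule.span K (Set.range fun i : Fin (minpoly K x).natDegree => x ^ (i : ℕ)) := by
  have hint : IsIntegral K x := IsIntegral.of_finite K x
  have hm : (minpoly K x).Monic := minpoly.monic hint
  have h1 : aeval x P = aeval x (P %ₘ minpoly K x) := by
    conv_lhs => rw [← modByMonic_add_div P (minpoly K x)]
    rw [map_add, map_mul, minpoly.aeval, zero_mul, add_zero]
  rw [h1, aeval_eq_sum_range' (n := (minpoly K x).natDegree)
    (natDegree_modByMonic_lt P hm (minpoly.ne_one K x))]
  refine Submodule.sum_mem _ fun i hi => Submodule.smul_mem _ _ (Submodule.subset_span ?_)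
  exact ⟨⟨i, Finset.mem_range.mp hi⟩, rfl⟩

/-- An element with enough independent powers is a combination of them. -/
theorem exists_comb {n q : ℕ} {x : D} (hdeg : (minpoly K x).natDegree ≤ n)
    (hx : LinearIndependent K fun j : Fin n => x ^ (q * (j : ℕ))) :
    ∃ c : Fin n → K, x = ∑ j, c j • x ^ (q * (j : ℕ)) := by
  classical
  set S := Submodule.span K (Set.range fun i : Fin (minpoly K x).natDegree => x ^ (i : ℕ)) with hS
  set S' := Submodule.span K (Set.range fun j : Fin n => x ^ (q * (j : ℕ))) with hS'
  have h1 : S' ≤ S := by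
    rw [hS', Submodule.span_le]
    rintro _ ⟨j, rfl⟩
    have h2 := aeval_mem_span (K := K) x (X ^ (q * (j : ℕ)))
    rwa [map_pow, aeval_X] at h2
  have h2 : finrank K S' = n := by
    rw [hS', finrank_span_eq_card hx, Fintype.card_fin]
  have h3 : finrank K S ≤ n := by
    refine (finrank_range_le_card _).trans ?_
    rw [Fintype.card_fin]
    exact hdeg
  have h4 : S' = S := Submodule.eq_of_le_of_finrank_le h1 (by rw [h2]; exact h3)
  have h5 : x ∈ S' := by
    rw [h4]
    have h6 := aeval_mem_span (K := K) x X
    rwa [aeval_X] at h6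
  rw [hS', Submodule.mem_span_range_iff_exists_fun] at h5
  obtain ⟨c, hc⟩ := h5
  exact ⟨c, hc.symm⟩

/-- **Continuous coefficients near `z`.** -/
theorem cramer [TopologicalSpace K] [IsTopologicalDivisionRing K] [T2Space K]
    [TopologicalSpace D] [IsTopologicalRing D] (hl : ∀ l : D →ₗ[K] K, Continuous l) {n q : ℕ}
    (hdeg : ∀ x : D, (minpoly K x).natDegree ≤ n) {z : D}
    (hz : LinearIndependent K fun j : Fin n => z ^ (q * (j : ℕ))) :
    ∃ e : Fin n → D → K, (∀ j, ContinuousAt (e j) z) ∧
      ∀ᶠ z1 in 𝓝 z, z1 = ∑ j, e j z1 • z1 ^ (q * (j : ℕ)) := by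
  classical
  obtain ⟨g, hg⟩ := LinearMap.exists_leftInverse_of_injective
    (Fintype.linearCombination K fun j : Fin n => z ^ (q * (j : ℕ)))
    (LinearMap.ker_eq_bot.mpr hz.fintypeLinearCombination_injective)
  have hgw : ∀ j : Fin n, g (z ^ (q * (j : ℕ))) = Pi.single j 1 := by
    intro j
    have h1 := LinearMap.congr_fun hg (Pi.single j 1)
    rw [LinearMap.comp_apply, Fintype.linearCombination_apply_single, one_smul,
      LinearMap.id_apply] at h1
    exact h1
  let M : D → Matrix (Fin n) (Fin n) K := fun x => Matrix.of fun i j => g (x ^ (q * (j : ℕ))) i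
  have hMz : M z = 1 := by
    ext i j
    change g (z ^ (q * (j : ℕ))) i = _
    rw [hgw, Matrix.one_apply, Pi.single_apply]
  have hgc : ∀ i, Continuous fun x : D => g x i := fun i =>
    hl ((LinearMap.proj i : (Fin n → K) →ₗ[K] K).comp g)
  have hMc : Continuous M := by
    refine continuous_matrix fun i j => ?_
    exact (hgc i).comp (continuous_pow _)
  have hdc : Continuous fun x => (M x).det := hMc.matrix_det
  have hdz : (M z).det ≠ 0 := by
    rw [hMz, Matrix.det_one]
    exact one_ne_zero
  refine ⟨fun j x => (M x).det⁻¹ * ((M x).adjugate.mulVec (g x)) j, fun j => ?_, ?_⟩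
  · refine (hdc.continuousAt.inv₀ hdz).mul (Continuous.continuousAt ?_)
    have h1 : Continuous fun x : D => (M x).adjugate.mulVec (g x) :=
      Continuous.matrix_mulVec hMc.matrix_adjugate (continuous_pi hgc)
    exact (continuous_apply j).comp h1
  · have hev : ∀ᶠ x in 𝓝 z, (M x).det ≠ 0 := hdc.continuousAt.eventually_ne hdz
    filter_upwards [hev] with x hx
    have hgx : ∀ c : Fin n → K, g (∑ j, c j • x ^ (q * (j : ℕ))) = (M x).mulVec c := by
      intro c
      rw [map_sum]
      ext i
      rw [Finset.sum_apply, Matrix.mulVec, dotProduct]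
      refine Finset.sum_congr rfl fun j _ => ?_
      rw [map_smul, Pi.smul_apply, smul_eq_mul, mul_comm]
      rfl
    have hinj : ∀ c : Fin n → K, (M x).det⁻¹ • ((M x).adjugate.mulVec ((M x).mulVec c)) = c := by
      intro c
      rw [Matrix.mulVec_mulVec, Matrix.adjugate_mul, Matrix.smul_mulVec, Matrix.one_mulVec,
        smul_smul, inv_mul_cancel₀ hx, one_smul]
    have hli : LinearIndependent K fun j : Fin n => x ^ (q * (j : ℕ)) := by
      rw [Fintype.linearIndependent_iff]
      intro c hc i
      have h1 := hgx c
      rw [hc, map_zero] at h1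
      have h2 := hinj c
      rw [← h1, Matrix.mulVec_zero, smul_zero] at h2
      rw [← h2]
      rfl
    obtain ⟨c, hc⟩ := exists_comb (hdeg x) hli
    have h1 : g x = (M x).mulVec c := by
      conv_lhs => rw [hc]
      exact hgx c
    have h2 : ∀ j, (M x).det⁻¹ * ((M x).adjugate.mulVec (g x)) j = c j := by
      intro j
      rw [h1]
      exact congrFun (hinj c) j
    conv_lhs => rw [hc]
    exact Finset.sum_congr rfl fun j _ => by rw [h2 j]

end Vale.Agent.P011.H672.Insep
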