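import Vale.Agent.P011.H271.PlaceK
import Vale.Agent.P011.H271.GF

/-!
# The `q`-th power coordinates of a global function field

Let `k` be a global function field of characteristic `p`, `q = p ^ e` and `c` a uniformizer at some
place.  Every element of `k` is `∑ κ i ^ q * c ^ i`, `i < q`, with unique `κ i`, which are
additive and small at every place at which `c` is a uniformizer.
-/

open Polynomial Module IntermediateField

namespace Vale.Agent.P011.H672.Insep

open Vale.Agent.P011.H738 Vale.Agent.P011.H271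

section abs

variable {k : Type} [Field k]

/-- An ultrametric sum of small terms is small. -/
theorem sum_lt' (v : Place k) {ι : Type*} (s : Finset ι) (t : ι → k) {r : ℝ} (hr : 0 < r)
    (h : ∀ i ∈ s, v.abv (t i) < r) : v.abv (∑ i ∈ s, t i) < r := by
  classical
  induction s using Finset.induction_on with
  | empty => rwa [Finset.sum_empty, map_zero]
  | insert a s ha ih =>
    rw [Finset.sum_insert ha]
    refine (v.nonarch _ _).trans_lt (max_lt (h a (Finset.mem_insert_self a s)) ?_)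
    exact ih fun i hi => h i (Finset.mem_insert_of_mem hi)

/-- Terms with distinct nonzero values are bounded by their sum. -/
theorem le_sum (v : Place k) {ι : Type*} [Fintype ι] (t : ι → k)
    (h : ∀ i j, t i ≠ 0 → t j ≠ 0 → v.abv (t i) = v.abv (t j) → i = j) (i : ι) :
    v.abv (t i) ≤ v.abv (∑ j, t j) := by
  classical
  have : Nonempty ι := ⟨i⟩
  obtain ⟨l, hl⟩ := Finite.exists_max (fun j => v.abv (t j))
  refine (hl i).trans ?_
  rcases eq_or_ne (t l) 0 with h0 | h0
  · rw [h0, map_zero]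
    exact v.abv.nonneg _
  have hpos : 0 < v.abv (t l) := v.abv.pos h0
  have h1 : v.abv (∑ j ∈ Finset.univ.erase l, t j) < v.abv (t l) := by
    refine sum_lt' v _ t hpos fun j hj => ?_
    have hjl : j ≠ l := Finset.ne_of_mem_erase hj
    rcases eq_or_ne (t j) 0 with h2 | h2
    · rwa [h2, map_zero]
    · exact lt_of_le_of_ne (hl j) fun h3 => hjl (h j l h2 h0 h3)
  have h2 : t l = ∑ j, t j + -∑ j ∈ Finset.univ.erase l, t j := by
    rw [← Finset.add_sum_erase Finset.univ t (Finset.mem_univ l)]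
    ring
  by_contra hcon
  rw [not_le] at hcon
  have h3 := v.nonarch (∑ j, t j) (-∑ j ∈ Finset.univ.erase l, t j)
  rw [← h2, v.abv.map_neg] at h3
  exact absurd h3 (not_le.mpr (max_lt hcon h1))

/-- The value of a uniformizer. -/
theorem abv_uni (v : Place k) {c : k}
    (hc : c ≠ 0 ∧ v.abv c < 1 ∧ ∀ y : k, v.abv y < 1 → v.abv y ≤ v.abv c) :
    v.abv c = (qq v : ℝ) ^ (-1 : ℤ) := by
  obtain ⟨hc0, hc1, hc2⟩ := hc
  have hq := one_lt_qq' v
  obtain ⟨m, hm⟩ := exists_eq_zpow v hc0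
  obtain ⟨x, hx⟩ := v.normalized.2.1
  have hx' : v.abv x = (qq v : ℝ) := hx
  have h1 : v.abv x⁻¹ = (qq v : ℝ) ^ (-1 : ℤ) := by
    rw [map_inv₀, hx', zpow_neg_one]
  have h2 : v.abv x⁻¹ < 1 := by
    rw [h1, zpow_neg_one]
    exact inv_lt_one_of_one_lt₀ hq
  have h3 := hc2 _ h2
  rw [h1, hm, zpow_le_zpow_iff_right₀ hq] at h3
  have h4 : m < 0 := by
    by_contra hcon
    rw [not_lt] at hcon
    rw [hm] at hc1
    exact absurd hc1 (not_lt.mpr (one_le_zpow₀ hq.le hcon))
  have h5 : m = -1 := by omega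
  rw [hm, h5]

/-- **The main inequality.** -/
theorem coord_le (v : Place k) {c : k}
    (hc : c ≠ 0 ∧ v.abv c < 1 ∧ ∀ y : k, v.abv y < 1 → v.abv y ≤ v.abv c) {q : ℕ}
    (u : Fin q → k) (i : Fin q) :
    v.abv (u i) ^ q * v.abv c ^ (i : ℕ) ≤ v.abv (∑ j, u j ^ q * c ^ (j : ℕ)) := by
  have hval := abv_uni v hc
  have hq := one_lt_qq' v
  have hq0 := qq_pos v
  have h1 : v.abv (u i ^ q * c ^ (i : ℕ)) ≤ v.abv (∑ j, u j ^ q * c ^ (j : ℕ)) := by
    refine le_sum v (fun j => u j ^ q * c ^ (j : ℕ)) (fun i j hi hj hij => ?_) i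
    have hi0 : u i ≠ 0 := by
      intro h
      refine hi ?_
      change u i ^ q * _ = 0
      rw [h, zero_pow (by have := i.2; omega), zero_mul]
    have hj0 : u j ≠ 0 := by
      intro h
      refine hj ?_
      change u j ^ q * _ = 0
      rw [h, zero_pow (by have := i.2; omega), zero_mul]
    obtain ⟨a, ha⟩ := exists_eq_zpow v hi0
    obtain ⟨b, hb⟩ := exists_eq_zpow v hj0
    have e1 : ∀ (x : k) (a : ℤ) (i : ℕ), v.abv x = (qq v : ℝ) ^ a →
        v.abv (x ^ q * c ^ i) = (qq v : ℝ) ^ (a * q - i) := by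
      intro x a i hx
      rw [map_mul, map_pow, map_pow, hx, hval, ← zpow_natCast, ← zpow_mul, ← zpow_natCast,
        ← zpow_mul, ← zpow_add₀ hq0.ne']
      congr 1
      ring
    rw [e1 _ a _ ha, e1 _ b _ hb] at hij
    have h2 := zpow_right_injective₀ hq0 hq.ne' hij
    have hi2 := i.2
    have hj2 := j.2
    have h3 : ((i : ℕ) : ℤ) - ((j : ℕ) : ℤ) = (a - b) * q := by linarith
    have h4 : (a - b) = 0 := by
      by_contra hne
      have h5 : (1 : ℤ) ≤ |a - b| := Int.one_le_abs hne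
      have h6 : |((i : ℕ) : ℤ) - ((j : ℕ) : ℤ)| < q := by
        rw [abs_lt]
        constructor <;> omega
      rw [h3, abs_mul, Nat.abs_cast] at h6
      nlinarith
    rw [h4, zero_mul] at h3
    exact Fin.ext (by omega)
  rwa [map_mul, map_pow, map_pow] at h1

end abs

section uniq

variable {k : Type} [Field k] {p : ℕ} [Fact p.Prime] [CharP k p] (e : ℕ)

/-- Uniqueness of the coordinates. -/
theorem coord_inj (v : Place k) {c : k}
    (hc : c ≠ 0 ∧ v.abv c < 1 ∧ ∀ y : k, v.abv y < 1 → v.abv y ≤ v.abv c)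
    {u w : Fin (p ^ e) → k}
    (h : ∑ j, u j ^ p ^ e * c ^ (j : ℕ) = ∑ j, w j ^ p ^ e * c ^ (j : ℕ)) : u = w := by
  funext i
  have h1 := coord_le v hc (fun j => u j - w j) i
  have h2 : ∑ j : Fin (p ^ e), (u j - w j) ^ p ^ e * c ^ (j : ℕ) = 0 := by
    have h3 : ∀ j, (u j - w j) ^ p ^ e * c ^ (j : ℕ) =
        u j ^ p ^ e * c ^ (j : ℕ) - w j ^ p ^ e * c ^ (j : ℕ) := by
      intro j
      rw [sub_pow_char_pow, sub_mul]
    rw [Finset.sum_congr rfl fun j _ => h3 j, Finset.sum_sub_distrib, h, sub_self]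
  rw [h2, map_zero] at h1
  have h3 : 0 < v.abv c ^ (i : ℕ) := pow_pos (v.abv.pos hc.1) _
  have h4 : v.abv (u i - w i) ^ p ^ e ≤ 0 := by
    by_contra hcon
    rw [not_le] at hcon
    exact absurd h1 (not_le.mpr (mul_pos hcon h3))
  have h5 : v.abv (u i - w i) = 0 := by
    have h6 : v.abv (u i - w i) ^ p ^ e = 0 :=
      le_antisymm h4 (pow_nonneg (v.abv.nonneg _) _)
    exact eq_zero_of_pow_eq_zero h6
  exact sub_eq_zero.mp (v.abv.eq_zero.mp h5)

end uniq

section span

variable {k : Type} [Field k] {p : ℕ} [Fact p.Prime] [CharP k p] (e : ℕ)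

/-- The field of `q`-th powers. -/
abbrev Fq (k : Type) [Field k] (p : ℕ) [Fact p.Prime] [CharP k p] (e : ℕ) : Subfield k :=
  (iterateFrobenius k p e).fieldRange

theorem pow_mem_Fq (x : k) : x ^ p ^ e ∈ Fq k p e :=
  ⟨x, iterateFrobenius_def _ _ _⟩

theorem exists_X [GFF k] : ∃ t : k, (Fq k p e)⟮t⟯ = ⊤ := by
  obtain ⟨F, iF, iFin, φ, hφ⟩ := (inferInstance : GFF k).out
  let _ : Algebra (RatFunc F) k := φ.toAlgebra
  have hsep : Algebra.IsSeparable (RatFunc F) k := hφ.2
  have hR : CharP (RatFunc F) p := (φ.charP_iff_charP p).mpr inferInstance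
  have hF : CharP F p := ((algebraMap F (RatFunc F)).charP_iff_charP p).mpr hR
  refine ⟨φ RatFunc.X, ?_⟩
  set L := (Fq k p e)⟮φ RatFunc.X⟯ with hL
  have hpow : ∀ x : k, x ^ p ^ e ∈ L := fun x =>
    L.algebraMap_mem ⟨x ^ p ^ e, pow_mem_Fq e x⟩
  have hX : φ RatFunc.X ∈ L := mem_adjoin_simple_self _ _
  have hconst : ∀ a : F, φ (algebraMap F (RatFunc F) a) ∈ L := by
    intro a
    obtain ⟨b, hb⟩ := (iterateFrobeniusEquiv F p e).surjective a
    rw [iterateFrobeniusEquiv_def] at hb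
    rw [← hb, map_pow, map_pow]
    exact hpow _
  have hpoly : ∀ P : F[X], φ (algebraMap F[X] (RatFunc F) P) ∈ L := by
    intro P
    induction P using Polynomial.induction_on' with
    | add P Q hP hQ =>
      rw [map_add, map_add]
      exact add_mem hP hQ
    | monomial n a =>
      rw [← C_mul_X_pow_eq_monomial, map_mul, map_mul, map_pow, map_pow]
      refine mul_mem ?_ (pow_mem ?_ n)
      · have h1 := hconst a
        rwa [RatFunc.algebraMap_eq_C, ← RatFunc.algebraMap_C] at h1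
      · rw [RatFunc.algebraMap_X]
        exact hX
  have hK0 : ∀ x : RatFunc F, φ x ∈ L := by
    intro x
    obtain ⟨n, d, hd, rfl⟩ := IsFractionRing.div_surjective (A := F[X]) x
    rw [map_div₀]
    exact div_mem (hpoly n) (hpoly d)
  rw [eq_top_iff]
  intro s _
  have h1 := adjoin_simple_eq_adjoin_pow_expChar_pow_of_isSeparable (RatFunc F) k
    (Algebra.IsSeparable.isSeparable (RatFunc F) s) p e
  have h2 : s ∈ (RatFunc F)⟮s ^ p ^ e⟯ := by
    rw [← h1]
    exact mem_adjoin_simple_self _ _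
  have h3 : (RatFunc F)⟮s ^ p ^ e⟯.toSubfield ≤ L.toSubfield := by
    change Subfield.closure _ ≤ _
    rw [Subfield.closure_le]
    rintro y (⟨x, rfl⟩ | hy)
    · exact hK0 x
    · rw [Set.mem_singleton_iff] at hy
      rw [hy]
      exact hpow s
  exact h3 h2

theorem finrank_Fq [GFF k] : FiniteDimensional (Fq k p e) k ∧ finrank (Fq k p e) k ≤ p ^ e := by
  obtain ⟨t, ht⟩ := exists_X (k := k) (p := p) e
  have hp0 : 0 < p ^ e := pow_pos (Fact.out : p.Prime).pos e
  have hroot : aeval t (X ^ p ^ e - C (⟨t ^ p ^ e, pow_mem_Fq e t⟩ : Fq k p e)) = 0 := by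
    rw [map_sub, map_pow, aeval_X, aeval_C, sub_eq_zero]
    rfl
  have hmon : (X ^ p ^ e - C (⟨t ^ p ^ e, pow_mem_Fq e t⟩ : Fq k p e)).Monic :=
    monic_X_pow_sub_C _ hp0.ne'
  have hint : IsIntegral (Fq k p e) t := ⟨_, hmon, hroot⟩
  have h1 : finrank (Fq k p e) k = (minpoly (Fq k p e) t).natDegree := by
    rw [← adjoin.finrank hint, ht, finrank_top']
  have h2 : (minpoly (Fq k p e) t).natDegree ≤ p ^ e := by
    have h3 := natDegree_le_of_dvd (minpoly.dvd _ _ hroot) hmon.ne_zero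
    rwa [natDegree_X_pow_sub_C] at h3
  refine ⟨Module.finite_of_finrank_pos ?_, h1.trans_le h2⟩
  rw [h1]
  exact minpoly.natDegree_pos hint

/-- Existence of the coordinates. -/
theorem coord_exists [GFF k] (v : Place k) {c : k}
    (hc : c ≠ 0 ∧ v.abv c < 1 ∧ ∀ y : k, v.abv y < 1 → v.abv y ≤ v.abv c) (b : k) :
    ∃ u : Fin (p ^ e) → k, b = ∑ i, u i ^ p ^ e * c ^ (i : ℕ) := by
  obtain ⟨hfd, hle⟩ := finrank_Fq (k := k) (p := p) e
  have hroot : ∀ a : Fq k p e, ∃ u : k, (a : k) = u ^ p ^ e := by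
    rintro ⟨_, u, rfl⟩
    exact ⟨u, iterateFrobenius_def _ _ _⟩
  have hli : LinearIndependent (Fq k p e) fun i : Fin (p ^ e) => c ^ (i : ℕ) := by
    rw [Fintype.linearIndependent_iff]
    intro a ha i
    choose u hu using fun i => hroot (a i)
    have h1 : ∑ j, u j ^ p ^ e * c ^ (j : ℕ) =
        ∑ j : Fin (p ^ e), (fun _ => (0 : k)) j ^ p ^ e * c ^ (j : ℕ) := by
      have h2 : ∑ j : Fin (p ^ e), (fun _ => (0 : k)) j ^ p ^ e * c ^ (j : ℕ) = 0 := by
        refine Finset.sum_eq_zero fun j _ => ?_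
        rw [zero_pow (pow_pos (Fact.out : p.Prime).pos e).ne', zero_mul]
      rw [h2, ← ha]
      refine Finset.sum_congr rfl fun j _ => ?_
      rw [← hu j]
      rfl
    have h2 := congrFun (coord_inj e v hc h1) i
    refine Subtype.ext ?_
    rw [hu i, h2, zero_pow (pow_pos (Fact.out : p.Prime).pos e).ne']
    rfl
  have hcard : Fintype.card (Fin (p ^ e)) = finrank (Fq k p e) k := by
    refine le_antisymm hli.fintype_card_le_finrank ?_
    rw [Fintype.card_fin]
    exact hle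
  have hspan := hli.span_eq_top_of_card_eq_finrank' hcard
  have hb : b ∈ Submodule.span (Fq k p e) (Set.range fun i : Fin (p ^ e) => c ^ (i : ℕ)) := by
    rw [hspan]
    trivial
  rw [Submodule.mem_span_range_iff_exists_fun] at hb
  obtain ⟨a, ha⟩ := hb
  choose u hu using fun i => hroot (a i)
  refine ⟨u, ?_⟩
  rw [← ha]
  refine Finset.sum_congr rfl fun j _ => ?_
  rw [← hu j]
  rfl

end span

/-- **The `q`-th power coordinates.** -/
theorem kbase {k : Type} [Field k] [GFF k] {p : ℕ} [Fact p.Prime] [CharP k p] (e : ℕ)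
    {T : Finset (Place k)} [Nonempty T] {c : k}
    (hc : ∀ v ∈ T, c ≠ 0 ∧ v.abv c < 1 ∧ ∀ y : k, v.abv y < 1 → v.abv y ≤ v.abv c) :
    ∃ κ : Fin (p ^ e) → k → k, (∀ i x y, κ i (x + y) = κ i x + κ i y) ∧
      (∀ b, b = ∑ i : Fin (p ^ e), κ i b ^ p ^ e * c ^ (i : ℕ)) ∧
      (∀ b i, κ i (b ^ p ^ e) = if (i : ℕ) = 0 then b else 0) ∧
      ∀ v ∈ T, ∀ i b, v.abv (κ i b) ^ p ^ e * v.abv c ^ (i : ℕ) ≤ v.abv b := by
  classical
  obtain ⟨v0, hv0⟩ := (inferInstance : Nonempty T)
  have hc0 := hc v0 hv0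
  have hp0 : p ^ e ≠ 0 := (pow_pos (Fact.out : p.Prime).pos e).ne'
  choose u hu using fun b : k => coord_exists (p := p) e v0 hc0 b
  refine ⟨fun i b => u b i, fun i x y => ?_, hu, fun b i => ?_, fun v hv i b => ?_⟩
  · have h1 : ∑ j, u (x + y) j ^ p ^ e * c ^ (j : ℕ) =
        ∑ j : Fin (p ^ e), (u x j + u y j) ^ p ^ e * c ^ (j : ℕ) := by
      rw [← hu (x + y)]
      conv_lhs => rw [hu x, hu y]
      rw [← Finset.sum_add_distrib]
      refine Finset.sum_congr rfl fun j _ => ?_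
      rw [add_pow_char_pow, add_mul]
    exact congrFun (coord_inj e v0 hc0 h1) i
  · have h1 : ∑ j, u (b ^ p ^ e) j ^ p ^ e * c ^ (j : ℕ) =
        ∑ j : Fin (p ^ e), (fun j : Fin (p ^ e) => if (j : ℕ) = 0 then b else 0) j ^ p ^ e *
          c ^ (j : ℕ) := by
      rw [← hu (b ^ p ^ e), Finset.sum_eq_single (⟨0, Nat.pos_of_ne_zero hp0⟩ : Fin (p ^ e))]
      · simp
      · intro j _ hj
        have hj0 : (j : ℕ) ≠ 0 := fun h => hj (Fin.ext h)
        simp only [if_neg hj0]
        rw [zero_pow hp0, zero_mul]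
      · intro h
        exact absurd (Finset.mem_univ _) h
    exact congrFun (coord_inj e v0 hc0 h1) i
  · have h1 := coord_le v (hc v hv) (u b) i
    rwa [← hu b] at h1

end Vale.Agent.P011.H672.Insep
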